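import Vale.Agent.P264.Defs

/-!
Shared vocabulary of the energy method for the rescaled equation
`V_s = V/2 - y V'/2 - dst (a V'') + forcing` on `[0, Y]`.
-/

namespace Vale.Agent.P264

open Set
open scoped ContDiff

/-- `dst f = (y^7 f)'' / y^7`. -/
noncomputable def dst (f : ℝ → ℝ) (y : ℝ) : ℝ :=
  deriv (deriv (fun z => z ^ 7 * f z)) y / y ^ 7

/-- The weights `rho_j`; `j = 5` is the main norm, `4` and `6` the stronger and the weaker one. -/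
noncomputable def rho (j : ℕ) (y : ℝ) : ℝ := y ^ 3 / (1 + y ^ 2) ^ j

/-- The transport part `V/2 - y V'/2`. -/
noncomputable def drift (V : ℝ → ℝ) (y : ℝ) : ℝ := V y / 2 - y * deriv V y / 2

/-- Weighted square norm on `[0, Y]` with cutoff `κ ^ p`. -/
noncomputable def wsq (j p : ℕ) (κ : ℝ → ℝ) (Y : ℝ) (V : ℝ → ℝ) : ℝ :=
  ∫ y in (0:ℝ)..Y, κ y ^ p * rho j y * V y ^ 2

/-- Lower order loss of the energy inequality. -/
noncomputable def loss (j : ℕ) (κ : ℝ → ℝ) (Y : ℝ) (V : ℝ → ℝ) : ℝ :=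
  ∫ y in (0:ℝ)..Y, κ y ^ 4 * rho j y * V y ^ 2 / (1 + y ^ 2)

/-- Dissipation. -/
noncomputable def diss (j : ℕ) (κ : ℝ → ℝ) (Y : ℝ) (a V : ℝ → ℝ) : ℝ :=
  ∫ y in (0:ℝ)..Y, κ y ^ 8 * rho j y * (a y * deriv (deriv V) y ^ 2)

/-- The singular part controlled at the fixed point of the rotation. -/
noncomputable def near (δ : ℝ) (V : ℝ → ℝ) : ℝ :=
  ∫ y in (0:ℝ)..δ, (y ^ 3 * deriv V y ^ 2 + y * V y ^ 2)

/-- Size of a forcing `G = a * K` under `dst`. -/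
noncomputable def fsq (j : ℕ) (κ : ℝ → ℝ) (Y : ℝ) (a K : ℝ → ℝ) : ℝ :=
  ∫ y in (0:ℝ)..Y, κ y ^ 8 * rho j y * (a y * K y ^ 2)

/-- Hypotheses on a coefficient `a` (product of two profiles). -/
structure Coef (Y M δ : ℝ) (a : ℝ → ℝ) : Prop where
  smooth : ContDiffOn ℝ ∞ a (Icc 0 Y)
  pos : ∀ y ∈ Ioo 0 Y, 0 < a y
  upper : ∀ y ∈ Icc 0 Y, a y ≤ M * y ^ 2
  slope : ∀ y ∈ Ioo 0 Y, deriv a y ^ 2 ≤ M * a y
  near0 : ∀ y ∈ Icc 0 δ, |a y - y ^ 2| ≤ y ^ 2 / 100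

/-- A cutoff: between `0` and `1`, constant on `[0, δ]`, with scale-invariant derivative bounds. -/
structure Cut (Y G δ : ℝ) (κ : ℝ → ℝ) : Prop where
  smooth : ContDiff ℝ ∞ κ
  nonneg : ∀ y, 0 ≤ κ y
  le_one : ∀ y, κ y ≤ 1
  flat : ∀ y, y ≤ δ → κ y = κ 0
  d1 : ∀ y ∈ Icc 0 Y, |deriv κ y| ≤ G / (1 + y)
  d2 : ∀ y ∈ Icc 0 Y, |deriv (deriv κ) y| ≤ G / (1 + y) ^ 2

/-- No boundary terms at the right end. -/
def Edge (Y : ℝ) (κ a : ℝ → ℝ) : Prop :=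
  (κ Y = 0) ∨ (a Y = 0 ∧ derivWithin a (Icc 0 Y) Y = 0)

end Vale.Agent.P264
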