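import Mathlib

/-!
Reduced Calabi flow for U(8)-invariant Kaehler metrics on complex projective 8-space, written in
momentum profiles, and the interface of the self-similar shrinking solution.

A U(8)-invariant Kaehler form is `i ddbar F(log |z|^2)`; with `x = F'` in `[0, L]` its profile is
`phi = F''`. Its scalar curvature (trace of the Ricci form) is `scal phi`, and the flow
`d/dt (potential) = S - average` becomes `phi_t = phi^2 S''`.
-/

namespace Vale.Agent.P264

open Set
open scoped ContDiff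

/-- The momentum profile of a smooth U(8)-invariant Kaehler metric on complex projective 8-space:
smooth up to both ends, zero there with slopes `1` and `-1`, positive in between. -/
structure IsProfile (L : ℝ) (φ : ℝ → ℝ) : Prop where
  smooth : ContDiffOn ℝ ∞ φ (Icc 0 L)
  left : φ 0 = 0
  right : φ L = 0
  slope_left : derivWithin φ (Icc 0 L) 0 = 1
  slope_right : derivWithin φ (Icc 0 L) L = -1
  pos : ∀ x ∈ Ioo 0 L, 0 < φ x

/-- Scalar curvature of the invariant metric with profile `φ` at momentum `x`. -/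
noncomputable def scal (φ : ℝ → ℝ) (x : ℝ) : ℝ :=
  56 / x - deriv (deriv (fun y => y ^ 7 * φ y)) x / x ^ 7

/-- A smooth invariant Calabi flow on the closed time interval `[0, T]` starting from `φ₀`. -/
structure IsFlow (L T : ℝ) (φ₀ : ℝ → ℝ) (φ : ℝ → ℝ → ℝ) : Prop where
  smooth : ContDiffOn ℝ ∞ (Function.uncurry φ) (Icc 0 T ×ˢ Icc 0 L)
  initial : ∀ x ∈ Icc 0 L, φ 0 x = φ₀ x
  profile : ∀ t ∈ Icc 0 T, IsProfile L (φ t)
  eqn : ∀ t ∈ Ioo 0 T, ∀ x ∈ Ioo 0 L,
    deriv (fun r => φ r x) t = φ t x ^ 2 * deriv (deriv (scal (φ t))) x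

/-- The disproof: some smooth invariant Kaehler metric has no smooth flow up to time one. -/
def Disproof : Prop :=
  ∃ L : ℝ, 0 < L ∧ ∃ φ₀ : ℝ → ℝ, IsProfile L φ₀ ∧ ∀ φ, ¬ IsFlow L 1 φ₀ φ

/-- A self-similar shrinking solution `phi = sqrt tau * F (x / sqrt tau)`, `F y = y * q y`.
`S` is the scalar curvature of `F`; `shrink` is the soliton equation integrated once, and it
gives `2 q^2 S'' = q'`, equivalently `F^2 S'' = (y F' - F) / 2`. -/
structure Shrinker where
  q : ℝ → ℝ
  S : ℝ → ℝ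
  c : ℝ
  y₀ : ℝ
  q_smooth : ContDiffOn ℝ ∞ q (Ici 0)
  S_smooth : ContDiffOn ℝ ∞ S (Ici 0)
  q_zero : q 0 = 1
  q_pos : ∀ y, 0 ≤ y → 0 < q y
  c_pos : 0 < c
  S_eq : ∀ y, 0 < y → S y = scal (fun z => z * q z) y
  shrink : ∀ y, 0 < y → deriv S y = 1 / (2 * c) - 1 / (2 * q y)
  q_lim : Filter.Tendsto q Filter.atTop (nhds c)
  S_decay : ∃ C : ℝ, ∀ y, 0 ≤ y → |S y| ≤ C / (1 + y)
  y₀_pos : 0 < y₀
  neck : q y₀ ≤ 1 / 10

end Vale.Agent.P264
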