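import Vale.Agent.P264.Assembly.Main
import Vale.Agent.P264.Assembly.Run
import Vale.Agent.P264.Assembly.Growth
import Vale.Agent.P264.Assembly.InitSmall
import Vale.Agent.P264.Assembly.Exist
import Vale.Agent.P264.Dict.Diff
import Vale.Agent.P264.Dict.Snap
import Vale.Agent.P264.Dict.NormDeriv
import Vale.Agent.P264.Dict.RelPot
import Vale.Agent.P264.Energy.All
import Vale.Agent.P264.Inner.Main
import Vale.Agent.P264.Middle.Main
import Vale.Agent.P264.Ref.Main
import Vale.Agent.P264.LinOp.Main
import Vale.Agent.P264.Manifold.Targets
import Vale.Agent.P264.Soliton.Glue

/-!
Wiring of the disproof. The profile statement needs only a shrinker; the statement on the projective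
space also takes the three bridges of `Manifold.Targets`.
-/

namespace Vale.Agent.P264.Final

/-- The growth bound. -/
theorem grows : Assembly.Grows :=
  Assembly.growth Energy.coercive Dict.snapEqn Dict.normDeriv Ref.refTarget Ref.refSlope

/-- The bootstrap package. -/
theorem runs : Assembly.RunTarget :=
  Assembly.run
    (Inner.innerEnergy Energy.coercive Energy.forcing Energy.interp Dict.snapEqn Ref.refTarget)
    (Inner.innerSup Energy.coercive Energy.forcing Energy.interp Dict.snapEqn Ref.refTarget)
    Middle.middle Ref.refTarget Ref.refSlope (Dict.relPot Ref.refTarget) Assembly.initSmall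

/-- The inputs of the linear operator module. -/
theorem inputs : LinOp.Inputs :=
  ⟨Energy.coercive, Energy.forcing, Energy.drift', Energy.cell, Dict.snapEqn, Dict.normDeriv⟩

/-- The linear operator. -/
theorem linOpTarget : LinOp.LinOpTarget := LinOp.linOp inputs

/-- The disproof on profiles, given a shrinker. -/
theorem disproof_of_shrinker (σ : Shrinker) : Disproof :=
  Assembly.disproof_of σ runs grows Dict.diffPot linOpTarget
    (Assembly.exist runs Dict.diffPot grows) Ref.refTarget

/-- The disproof on profiles, given the inner connection. -/
theorem disproof_of_inner (hA : Soliton.InnerTarget) : Disproof := by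
  obtain ⟨σ⟩ := Soliton.exists_shrinker_of_inner hA
  exact disproof_of_shrinker σ

/-- The disproof on complex projective space, given the connection and the three bridges. -/
theorem manifold_disproof_of (hA : Soliton.InnerTarget) (hR : Manifold.RealizeTarget)
    (hP : Manifold.ProfileFlowTarget) (hI : Manifold.InvariantFlowTarget) :
    Manifold.ManifoldDisproof :=
  Manifold.manifoldDisproof hR hP hI (disproof_of_inner hA)

end Vale.Agent.P264.Final
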