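import Vale.Agent.P264.Final
import Vale.Agent.P264.Manifold.ProfileFlow
import Vale.Agent.P264.Manifold.Even
import Vale.Agent.P264.Manifold.ScalarAxis
import Vale.Agent.P264.Manifold.Realize
import Vale.Agent.P264.Soliton.Inner.Match

/-!
Wiring with all proved bridges: only the middle connection and invariance of the flow are inputs.
-/

namespace Vale.Agent.P264.Final

/-- An invariant flow reduces to profiles. -/
theorem profileFlowTarget : Manifold.ProfileFlowTarget :=
  Manifold.profileFlow Manifold.even Manifold.scalarAxis

/-- The disproof on complex projective space, given the connection and invariance. -/
theorem manifold_disproof (hA : Soliton.InnerTarget) (hI : Manifold.InvariantFlowTarget) :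
    Manifold.ManifoldDisproof :=
  manifold_disproof_of hA Manifold.realize profileFlowTarget hI

end Vale.Agent.P264.Final
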