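import Vale.Agent.P264.Common

/-!
The reference flow built from a shrinker, potentials, rescaled snapshots and the bootstrap.

Rescaling: `tau = 1 - t = exp (-s)`, `y = x / sqrt tau`, a potential `w` becomes
`snap w s y = exp (s/2) w(t, x)` and a profile `phi` becomes `rprof phi s y = exp (s/2) phi(t, x)`.
-/

namespace Vale.Agent.P264

open Set
open scoped ContDiff

/-- `D y = y ∫_y^∞ 2 S(z) / z^2`, so `D - y D' = 2 S` and `D'' = (1/q - 1/c) / y`. -/
noncomputable def Dcor (σ : Shrinker) (y : ℝ) : ℝ :=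
  y * ∫ z in Ioi y, 2 * σ.S z / z ^ 2

/-- Outer cutoff: `1` for `x ≤ L/4`, `0` for `x ≥ L/2`. -/
noncomputable def chiL (L x : ℝ) : ℝ := Real.smoothTransition (2 - 4 * x / L)

/-- Outer profile: cone of slope `c` inside, slope `-1` at `L`. -/
noncomputable def phiOut (σ : Shrinker) (L x : ℝ) : ℝ :=
  chiL L x * (σ.c * x) + (1 - chiL L x) * (L - x)

/-- Reference profile at time `t < 1`. -/
noncomputable def phiRef (σ : Shrinker) (L t x : ℝ) : ℝ :=
  if x ≤ L / 4 then x * σ.q (x / Real.sqrt (1 - t))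
  else phiOut σ L x / (1 + phiOut σ L x *
    deriv (deriv (fun z => chiL L z * (Real.sqrt (1 - t) * Dcor σ (z / Real.sqrt (1 - t))))) x)

/-- Time derivative of the reference potential, up to sign: `u_t = - refS`. -/
noncomputable def refS (σ : Shrinker) (L t x : ℝ) : ℝ :=
  chiL L x * (σ.S (x / Real.sqrt (1 - t)) / Real.sqrt (1 - t))

/-- Failure of the reference to solve the flow; zero for `x < L/4`. -/
noncomputable def fRef (σ : Shrinker) (L t x : ℝ) : ℝ :=
  refS σ L t x - scal (phiRef σ L t) x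

/-- `w` is a potential for the difference of profiles with coefficient `a` and forcing `f`. -/
structure Pot (L : ℝ) (a f w : ℝ → ℝ → ℝ) : Prop where
  smooth : ContDiffOn ℝ ∞ (Function.uncurry w) (Ico 0 1 ×ˢ Icc 0 L)
  eqn : ∀ t ∈ Ioo (0:ℝ) 1, ∀ x ∈ Ioo 0 L,
    deriv (fun r => w r x) t = -dst (fun z => a t z * deriv (deriv (w t)) z) x + f t x

/-- `w` is the potential of the flow `φ` relative to the reference. -/
structure RelPot (σ : Shrinker) (L : ℝ) (φ w : ℝ → ℝ → ℝ) : Prop where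
  pot : Pot L (fun t x => φ t x * phiRef σ L t x) (fRef σ L) w
  second : ∀ t ∈ Ico (0:ℝ) 1, ∀ x ∈ Ioo 0 L,
    deriv (deriv (w t)) x = 1 / φ t x - 1 / phiRef σ L t x

/-- Physical time at rescaled time `s`. -/
noncomputable def tof (s : ℝ) : ℝ := 1 - Real.exp (-s)

/-- Right end of the rescaled interval. -/
noncomputable def Ys (L s : ℝ) : ℝ := L * Real.exp (s / 2)

/-- Rescaled potential. -/
noncomputable def snap (w : ℝ → ℝ → ℝ) (s y : ℝ) : ℝ :=
  Real.exp (s / 2) * w (tof s) (Real.exp (-s / 2) * y)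

/-- Rescaled profile. -/
noncomputable def rprof (φ : ℝ → ℝ → ℝ) (s y : ℝ) : ℝ :=
  Real.exp (s / 2) * φ (tof s) (Real.exp (-s / 2) * y)

/-- First derivative in rescaled time (one-sided at `s = 0`). -/
noncomputable def zOne (w : ℝ → ℝ → ℝ) (s y : ℝ) : ℝ :=
  derivWithin (fun r => snap w r y) (Ici 0) s

/-- Second derivative in rescaled time. -/
noncomputable def zTwo (w : ℝ → ℝ → ℝ) (s y : ℝ) : ℝ :=
  derivWithin (fun r => zOne w r y) (Ici 0) s

/-- Main norm squared of the rescaled potential. -/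
noncomputable def normN (L : ℝ) (w : ℝ → ℝ → ℝ) (s : ℝ) : ℝ :=
  wsq 5 0 (fun _ => 1) (Ys L s) (snap w s)

/-- Cutoff equal to `1` on `[0, 16 R]`, zero beyond `32 R`. -/
noncomputable def th1 (R y : ℝ) : ℝ := Real.smoothTransition (2 - y / (16 * R))

/-- Cutoff equal to `1` on `[0, 8 R]`, zero beyond `16 R`. -/
noncomputable def th2 (R y : ℝ) : ℝ := Real.smoothTransition (2 - y / (8 * R))

/-- Inner quantities of the two time derivatives. -/
noncomputable def normE (R : ℝ) (w : ℝ → ℝ → ℝ) (s : ℝ) : ℝ :=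
  wsq 5 8 (th1 R) (32 * R) (zOne w s) + wsq 5 8 (th2 R) (16 * R) (zTwo w s)

/-- The bootstrap conditions at rescaled time `s`. -/
structure Boot (σ : Shrinker) (L R η M : ℝ) (φ w : ℝ → ℝ → ℝ) (s : ℝ) : Prop where
  small : normN L w s + normE R w s ≤ η
  lower : ∀ y ∈ Ioo 0 (Ys L s), rprof (phiRef σ L) s y ≤ M * rprof φ s y
  upper : ∀ y ∈ Ioo 0 (Ys L s), rprof φ s y ≤ M * rprof (phiRef σ L) s y
  slope : ∀ y ∈ Ioo 0 (Ys L s), |deriv (rprof φ s) y| ≤ M
  cap : ∀ y ∈ Ioo 0 (8 * R), |rprof φ s y - y * σ.q y| ≤ y * σ.q y / 1000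

end Vale.Agent.P264
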